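import Vale.Agent.Lib.P329.Join
import Vale.Agent.Lib.P329.Sub3b
import Vale.Agent.Lib.P329.TwoSided

namespace Vale.Agent.Results.P329.AAAllClasses

open Vale.Agent.Lib.P329

/-- Three classes of regular languages of generalized star height at most one, in one statement.

(1) Groups: `G` is a finite group with finitely many normal subgroups `A i` such that every
quotient `G / A i` is an elementary abelian `p i`-group (`p i` prime), and such that the fourth term
of the lower central series of `G` and the commutator subgroups `[A i, A i]` intersect trivially.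
(Empty family: `G` nilpotent of class at most three.  One subgroup, abelian: `G` is
abelian-by-elementary abelian.)  Every language recognized by `G` has height at most one.

(2) Two-sided modular counting over a finite aperiodic monoid `T`: every position `i` of `w` gets
the weight `c (η(w_<i)) w_i (η(w_>i))` in a finite abelian group `B`; any condition on the sum of
the weights together with `η(w)` defines a language of height at most one.

(3) Counting the occurrences of a scattered subword `u` of length at most three modulo `n`. -/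
theorem result :
    (∀ (G : Type) [Group G] [Finite G] (ι : Type) [Finite ι] (p : ι → ℕ)
      (_ : ∀ i, (p i).Prime) (A : ι → Subgroup G) (_ : ∀ i, (A i).Normal)
      (_ : ∀ i, ∀ g h : G, g * h * g⁻¹ * h⁻¹ ∈ A i) (_ : ∀ i, ∀ g : G, g ^ p i ∈ A i)
      (_ : ∀ g : G, g ∈ Subgroup.lowerCentralSeries (⊤ : Subgroup G) 3 →
        (∀ i, g ∈ ⁅A i, A i⁆) → g = 1)
      (α : Type) [Finite α] (φ : α → G) (S : Set G),
      ∃ e : GRE α, e.sh ≤ 1 ∧ ∀ w : List α, w ∈ e.lang ↔ (w.map φ).prod ∈ S) ∧
    (∀ (T : Type) [Monoid T] [Finite T] (_ : ∀ x : T, ∃ n : ℕ, x ^ n = x ^ (n + 1))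
      (α : Type) [Finite α] (η : α → T)
      (B : Type) [AddCommGroup B] [Finite B] (c : T → α → T → B) (S : Set (B × T)),
      ∃ e : GRE α, e.sh ≤ 1 ∧ ∀ w : List α, w ∈ e.lang ↔
        (∑ i : Fin w.length, c ((w.take i).map η).prod (w.get i) ((w.drop (i + 1)).map η).prod,
          (w.map η).prod) ∈ S) ∧
    (∀ (α : Type) [Finite α] [DecidableEq α] (u : List α) (_ : u.length ≤ 3)
      (n : ℕ) (_ : n ≠ 0) (r : ℕ),
      ∃ e : GRE α, e.sh ≤ 1 ∧
        ∀ w : List α, w ∈ e.lang ↔ (List.sublists w).count u ≡ r [MOD n]) := by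
  refine ⟨?_, ?_, ?_⟩
  · intro G _ _ ι _ p hp A hn hq hpow hsep α _ φ S
    exact join_HT G ι p hp A hn hq hpow hsep α φ S
  · intro T _ _ hT α _ η B _ _ c S
    obtain ⟨e, he, h⟩ := twosided_pair_HT hT η c S
    refine ⟨e, he, fun w => ?_⟩
    rw [h w]
    have := wsumA_eq_sum η c 1 w 1
    simp only [one_mul, mul_one] at this
    show (wsumA η c 1 1 w, wval η w) ∈ S ↔ _
    rw [this]
    rfl
  · intro α _ _ u hu n hn r
    exact sc_HT u hu n hn r

end Vale.Agent.Results.P329.AAAllClasses
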