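import Vale.Agent.Lib.P329.TwoSided

namespace Vale.Agent.Results.P329.AAModularCountingFO

open Vale.Agent.Lib.P329

/-- Two-sided modular counting over a finite aperiodic monoid has generalized star height at most
one: `T` is a finite aperiodic monoid, `η` a morphism from words to `T` (given on letters), `B` a
finite abelian group and `c` an arbitrary weight.  Every position `i` of a word `w` gets the weight
`c (η(w_<i)) w_i (η(w_>i))`; any condition on the sum of these weights together with `η(w)` defines
a language of generalized star height at most one. -/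
theorem result (T : Type) [Monoid T] [Finite T] (hT : ∀ x : T, ∃ n : ℕ, x ^ n = x ^ (n + 1))
    (α : Type) [Finite α] (η : α → T)
    (B : Type) [AddCommGroup B] [Finite B] (c : T → α → T → B) (S : Set (B × T)) :
    ∃ e : GRE α, e.sh ≤ 1 ∧ ∀ w : List α, w ∈ e.lang ↔
      (∑ i : Fin w.length, c ((w.take i).map η).prod (w.get i) ((w.drop (i + 1)).map η).prod,
        (w.map η).prod) ∈ S := by
  obtain ⟨e, he, h⟩ := twosided_pair_HT hT η c S
  refine ⟨e, he, fun w => ?_⟩
  rw [h w]
  have := wsumA_eq_sum η c 1 w 1
  simp only [one_mul, mul_one] at this
  show (wsumA η c 1 1 w, wval η w) ∈ S ↔ _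
  rw [this]
  rfl

end Vale.Agent.Results.P329.AAModularCountingFO
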